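import Crest.Agent.R086.PDE
import Crest.Agent.R086.P.Main
import Crest.Agent.R086.M.Main
import Crest.Agent.R086.Mb.Main

/-! # Row 86: everything modulo the limit problem (part N) -/

open Crest.AnalysisR.PDE.NLS

namespace Crest.Agent.R086

theorem all_of (hL : LimitStmt) (hM : MatchStmt) (p₀ : ℕ) :
    ∃ p : ℕ, p₀ ≤ p ∧ Odd p ∧ 3 ≤ p ∧ ∃ k : ℕ, 8 < k ∧ ∃ U : Set (R12 → ℂ), U.Nonempty ∧
      (∀ v ∈ U, IsSmoothPeriodic v) ∧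
      (∀ u₀ ∈ U, ∃ δ : ℝ, 0 < δ ∧ ∀ v : R12 → ℂ, IsSmoothPeriodic v → sobolevDistSq k v u₀ < δ → v ∈ U) ∧
      ∀ u₀ ∈ U, ∃ T : ℝ, 0 < T ∧ ∃ u : ℝ → R12 → ℂ, IsClassicalSolution p T u ∧ u 0 = u₀ ∧
        ∃ xs : R12, ∃ c₀ : ℝ, 0 < c₀ ∧
          Filter.Tendsto (fun t : ℝ => (T - t) ^ (1 / ((p : ℝ) - 1)) * ‖u t xs‖)
            (nhdsWithin T (Set.Iio T)) (nhds c₀) :=
  final (P.famStmt hM) (M.modeStmt_of Mb.high Mb.adm hL) blowAll p₀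

end Crest.Agent.R086
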