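import Crest.Prelude.Def_PeriodicNLS

/-!
# Row 86 (S0114): definitions and the interface statements between the parts
See `DESIGN.md` in this folder.  Parts: N (limit p = ∞), P (profile), M (mode stability),
E (norms, energy), L (local theory), C (compactness, spectral reduction), K (key proposition, iteration).
-/

open MeasureTheory Set Filter Topology
open scoped ContDiff ComplexConjugate ENNReal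
open Crest.AnalysisR.PDE.NLS

namespace Crest.Agent.R086

noncomputable section

/-! ## The nonlinearity and the profile (p = 2n+1) -/

/-- a = 1/(p-1) -/
def aa (n : ℕ) : ℝ := 1 / (2 * (n : ℝ))
/-- |u|^{2n} u -/
def NL (n : ℕ) (u : ℂ) : ℂ := u ^ (n + 1) * (conj u) ^ n
/-- ∂NL/∂u = (n+1)|u|^{2n} -/
def V1 (n : ℕ) (u : ℂ) : ℂ := ((n : ℂ) + 1) * (u ^ n * (conj u) ^ n)
/-- ∂NL/∂ū = n |u|^{2n-2} u² -/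
def V2 (n : ℕ) (u : ℂ) : ℂ := (n : ℂ) * (u ^ (n + 1) * (conj u) ^ (n - 1))

/-- Self-similar profile in the variable ρ = |y|²/4:  u = τ^{-a+ib} q(|x|²/4τ), τ = T - t. -/
structure Prof (n : ℕ) (b : ℝ) (q : ℝ → ℂ) : Prop where
  npos : 1 ≤ n
  smooth : ContDiff ℝ ∞ q
  ode : ∀ ρ : ℝ, 0 ≤ ρ → (ρ : ℂ) * deriv (deriv q) ρ + (6 + Complex.I * ρ) * deriv q ρ
      + ((b : ℂ) + Complex.I * (aa n : ℂ)) * q ρ = NL n (q ρ)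
  ne0 : q 0 ≠ 0
  symb : ∀ j : ℕ, ∃ C : ℝ, ∀ ρ : ℝ, 0 ≤ ρ → ‖iteratedDeriv j q ρ‖ ≤ C * (1 + ρ) ^ (-(aa n) - j)

/-! ## Radial modes -/

/-- the profile as a function of r = |y| -/
def Qr (q : ℝ → ℂ) (r : ℝ) : ℂ := q (r ^ 2 / 4)

/-- Δ on (y₁+iy₂)^m × radial, written for the restriction to the ray y = r e₁ -/
def DD (m : ℕ) (f : ℝ → ℂ) (r : ℝ) : ℂ :=
  deriv (deriv f) r + 11 / (r : ℂ) * deriv f r - ((m : ℂ) * (m + 10)) / (r : ℂ) ^ 2 * f r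

/-- first component of the complexified linearised operator in similarity variables -/
def L1 (n : ℕ) (b : ℝ) (q : ℝ → ℂ) (m : ℕ) (f g : ℝ → ℂ) (r : ℝ) : ℂ :=
  Complex.I * DD m f r - ((aa n : ℂ) - Complex.I * b) * f r - (r : ℂ) / 2 * deriv f r
    - Complex.I * (V1 n (Qr q r) * f r + V2 n (Qr q r) * g r)

/-- second component -/
def L2 (n : ℕ) (b : ℝ) (q : ℝ → ℂ) (m : ℕ) (f g : ℝ → ℂ) (r : ℝ) : ℂ :=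
  -Complex.I * DD m g r - ((aa n : ℂ) + Complex.I * b) * g r - (r : ℂ) / 2 * deriv g r
    + Complex.I * (V1 n (Qr q r) * g r + conj (V2 n (Qr q r)) * f r)

/-- phase mode iQ (m = 0, eigenvalue 0); `a = 0` is the limit problem -/
def ph0 (Q : ℝ → ℂ) (r : ℝ) : ℂ := Complex.I * Q r
/-- blow-up time mode ΛQ = (-a+ib)Q - (r/2)Q' (m = 0, eigenvalue 1) -/
def ph1 (a b : ℝ) (Q : ℝ → ℂ) (r : ℝ) : ℂ := (-(a : ℂ) + Complex.I * b) * Q r - (r : ℂ) / 2 * deriv Q r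
/-- translation mode Q' (m = 1, eigenvalue 1/2) -/
def ph2 (Q : ℝ → ℂ) (r : ℝ) : ℂ := deriv Q r

/-- c₀ φ₀ + c₁ φ₁ + c₂ φ₂ -/
def phc (a b : ℝ) (Q : ℝ → ℂ) (c₀ c₁ c₂ : ℂ) (r : ℝ) : ℂ :=
  c₀ * ph0 Q r + c₁ * ph1 a b Q r + c₂ * ph2 Q r

/-- which coefficients are allowed for angular number m -/
def Allowed (m : ℕ) (c₀ c₁ c₂ : ℂ) : Prop := (m ≠ 0 → c₀ = 0 ∧ c₁ = 0) ∧ (m ≠ 1 → c₂ = 0)

/-- (f, g) lies, for r > R₀, in the complex span E_m of the pairs (φ, conj φ) -/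
def InE (a b : ℝ) (Q : ℝ → ℂ) (R₀ : ℝ) (m : ℕ) (f g : ℝ → ℂ) : Prop :=
  ∃ c₀ c₁ c₂ : ℂ, Allowed m c₀ c₁ c₂ ∧ ∀ r : ℝ, R₀ < r →
    f r = phc a b Q c₀ c₁ c₂ r ∧ g r = conj (phc a b Q (conj c₀) (conj c₁) (conj c₂) r)

/-- admissible radial functions -/
structure RadAdm (f : ℝ → ℂ) : Prop where
  smooth : ContDiff ℝ 24 f
  decay : ∃ C : ℝ, ∀ i : ℕ, i ≤ 24 → ∀ r : ℝ, 0 ≤ r → ‖iteratedDeriv i f r‖ ≤ C * (1 + r) ^ (-(i : ℝ))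

/-- mode stability modulo the symmetry modes -/
def MS (n : ℕ) (b : ℝ) (q : ℝ → ℂ) : Prop :=
  ∀ (m : ℕ) (lam : ℂ) (f g : ℝ → ℂ), 0 ≤ lam.re → RadAdm f → RadAdm g →
    InE (aa n) b (Qr q) 0 m (fun r => L1 n b q m f g r - lam * f r)
      (fun r => L2 n b q m f g r - lam * g r) →
    InE (aa n) b (Qr q) 0 m f g

/-! ## The limit problem p = ∞ (part N) -/

/-- the box around (b*, R*) = (0.3347760687, 3.2894183029) -/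
def InBox (b R : ℝ) : Prop :=
  b ∈ Icc (0.334766 : ℝ) 0.334786 ∧ R ∈ Icc (3.28936 : ℝ) 3.28948

/-- admissible solution of the free equation i 𝒟f = α f + (r/2) f' + e on (R, ∞):
𝒟⁴ f ∈ L²(r¹¹ dr) near ∞ -/
structure Free (R : ℝ) (m : ℕ) (α : ℂ) (f e : ℝ → ℂ) : Prop where
  smooth : ContDiffOn ℝ 12 f (Ioi R)
  ode : ∀ r : ℝ, R < r → Complex.I * DD m f r = α * f r + (r : ℂ) / 2 * deriv f r + e r
  adm : IntegrableOn (fun r : ℝ => r ^ 11 * ‖(DD m)^[4] f r‖ ^ 2) (Ioi (R + 1))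

/-- the limit profile: Φ(R) = 1, Φ'(R) = 0, admissible -/
structure LimProf (b R : ℝ) (Φ : ℝ → ℂ) : Prop where
  box : InBox b R
  free : Free R 0 (-Complex.I * b) Φ 0
  val : Tendsto Φ (𝓝[>] R) (𝓝 1)
  der : Tendsto (deriv Φ) (𝓝[>] R) (𝓝 0)

/-- **N1. Limit mode stability.**  `G` is the conjugate of the second component g.
(the sign of the forcing is irrelevant: c ranges over all allowed coefficients) -/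
def LimitStmt : Prop :=
  ∀ (b R : ℝ) (Φ : ℝ → ℂ), LimProf b R Φ →
  ∀ (m : ℕ) (lam c₀ c₁ c₂ : ℂ) (f G : ℝ → ℂ), 0 ≤ lam.re → lam.re ≤ 33 / 10 → Allowed m c₀ c₁ c₂ →
    Free R m (lam - Complex.I * b) f (phc 0 b Φ c₀ c₁ c₂) →
    Free R m (conj lam - Complex.I * b) G (phc 0 b Φ (conj c₀) (conj c₁) (conj c₂)) →
    Tendsto (fun r => f r + conj (G r)) (𝓝[>] R) (𝓝 0) →
    Tendsto (fun r => (deriv f r - conj (deriv G r)) - (m : ℂ) / r * (f r - conj (G r)))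
      (𝓝[>] R) (𝓝 0) →
    InE 0 b Φ R m f (fun r => conj (G r))

/-- **N2. Sign conditions on the faces of the box** for the admissible free solution. -/
def MatchStmt : Prop :=
  ∀ (b : ℝ) (F : ℝ → ℂ), b ∈ Icc (0.334766 : ℝ) 0.334786 → Free 3 0 (-Complex.I * b) F 0 →
    (∃ r : ℝ, 3 < r ∧ F r ≠ 0) →
    (∀ r ∈ Icc (3.28936 : ℝ) 3.28948, F r ≠ 0 ∧ ‖deriv F r / F r‖ ≤ 1 / 1000) ∧
    (∀ r ∈ Icc (3.28936 : ℝ) 3.28937, 1 / 10 ^ 6 ≤ (deriv F r / F r).re) ∧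
    (∀ r ∈ Icc (3.28947 : ℝ) 3.28948, (deriv F r / F r).re ≤ -(1 / 10 ^ 6)) ∧
    (b = 0.334766 → ∀ r ∈ Icc (3.28936 : ℝ) 3.28948, 1 / 10 ^ 7 ≤ (deriv F r / F r).im) ∧
    (b = 0.334786 → ∀ r ∈ Icc (3.28936 : ℝ) 3.28948, (deriv F r / F r).im ≤ -(1 / 10 ^ 7))

/-! ## The family of profiles (part P delivers, part M uses) -/

/-- x = Re Q'/Q -/
def xx (q : ℝ → ℂ) (r : ℝ) : ℝ := (deriv (Qr q) r / Qr q r).re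
/-- y = Im Q'/Q -/
def yy (q : ℝ → ℂ) (r : ℝ) : ℝ := (deriv (Qr q) r / Qr q r).im

structure Fam (b R : ℕ → ℝ) (q : ℕ → ℝ → ℂ) : Prop where
  prof : ∀ᶠ n in atTop, Prof n (b n) (q n)
  box : ∀ᶠ n in atTop, InBox (b n) (R n)
  /-- G1 -/
  ne : ∀ᶠ n in atTop, ∀ r : ℝ, 0 ≤ r → Qr (q n) r ≠ 0
  /-- G2: the plateau -/
  plateau : ∀ᶠ n in atTop, ∀ r ∈ Icc 0 (R n), (1 / 12 : ℝ) ≤ ‖Qr (q n) r‖ ^ (2 * n)
  /-- G3 -/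
  flat : ∀ ε : ℝ, 0 < ε → ∀ᶠ n in atTop, ∀ r ∈ Icc 0 (R n),
    ‖Qr (q n) r - 1‖ ≤ ε ∧ ‖deriv (Qr (q n)) r‖ ≤ ε
  /-- G4 -/
  bdd : ∃ C : ℝ, 0 < C ∧ ∀ᶠ n in atTop, ∀ r ∈ Icc 0 (R n + 1),
    1 / C ≤ ‖Qr (q n) r‖ ∧ ‖Qr (q n) r‖ ≤ C ∧ ‖deriv (Qr (q n)) r‖ ≤ C ∧
      ‖deriv (deriv (Qr (q n))) r‖ ≤ C
  /-- G5: r V' ≤ 0.4 V near the plateau (V'/V = 2 n x) -/
  repul : ∃ r₂ : ℝ, 0 < r₂ ∧ ∀ᶠ n in atTop, ∀ r ∈ Icc 0 (R n + r₂), 2 * n * r * xx (q n) r ≤ 2 / 5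
  /-- G6: v/r = 1/2 + 2y/r ∈ [2/5, 3/5], |r x| ≤ 1, and v' ≥ -0.28 - 2a -/
  flow : ∀ᶠ n in atTop, ∀ r : ℝ, 0 < r →
    2 / 5 ≤ 1 / 2 + 2 * yy (q n) r / r ∧ 1 / 2 + 2 * yy (q n) r / r ≤ 3 / 5 ∧ |r * xx (q n) r| ≤ 1 ∧
      (11 + 2 * r * xx (q n) r) * (1 / 2 + 2 * yy (q n) r / r) ≤ 6.28
  /-- G7: the potentials are tiny outside the plateau -/
  tiny : ∀ η : ℝ, 0 < η → ∀ ε : ℝ, 0 < ε → ∀ᶠ n in atTop, ∀ i : ℕ, i ≤ 12 → ∀ r : ℝ, R n + η ≤ r →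
    ‖iteratedDeriv i (fun s => V1 n (Qr (q n) s)) r‖ ≤ ε * r ^ (-(2 : ℝ) - i) ∧
    ‖iteratedDeriv i (fun s => V2 n (Qr (q n) s)) r‖ ≤ ε * r ^ (-(2 : ℝ) - i)

/-- **P** -/
def FamStmt : Prop := ∃ (b R : ℕ → ℝ) (q : ℕ → ℝ → ℂ), Fam b R q

/-- **M** -/
def ModeStmt : Prop :=
  ∀ (b R : ℕ → ℝ) (q : ℕ → ℝ → ℂ), Fam b R q → ∃ᶠ n in atTop, MS n (b n) (q n)

/-! ## PDE: geometry, norms, rescaling -/

def ee (i : Fin 12) : R12 := EuclideanSpace.single i 1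

def lap (f : R12 → ℂ) (y : R12) : ℂ := ∑ i : Fin 12, iteratedFDeriv ℝ 2 f y ![ee i, ee i]

/-- periodic replacement of s² (period 2π/h); h = 0 is the whole space -/
def psi (h s : ℝ) : ℝ := if h = 0 then s ^ 2 else (2 - 2 * Real.cos (h * s)) / h ^ 2
/-- periodic replacement of |y|² -/
def PP (h : ℝ) (y : R12) : ℝ := ∑ i : Fin 12, psi h (y i)
/-- centred period cell; the whole space for h = 0 -/
def cell (h : ℝ) : Set R12 :=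
  if h = 0 then univ else {y | ∀ i : Fin 12, y i ∈ Ico (-(Real.pi / h)) (Real.pi / h)}
/-- (2π/h)-periodic; no condition for h = 0 -/
def Per (h : ℝ) (f : R12 → ℂ) : Prop :=
  h ≠ 0 → ∀ (y : R12) (i : Fin 12), f (y + EuclideanSpace.single i (2 * Real.pi / h)) = f y

/-- weight exponents e_j = min (j-6) (max 0 (74-j)) -/
def ew (j : ℕ) : ℝ := min ((j : ℝ) - 6) (max 0 (74 - (j : ℝ)))

/-- the weighted Sobolev norm of order k -/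
def nrm (k : ℕ) (h : ℝ) (f : R12 → ℂ) : ℝ≥0∞ :=
  ∑ j ∈ Finset.range (k + 1),
    eLpNorm (fun y => (1 + PP h y) ^ (ew j / 2) • iteratedFDeriv ℝ j f y) 2 (volume.restrict (cell h))

/-- the weak (compact) norm -/
def low (h : ℝ) (f : R12 → ℂ) : ℝ≥0∞ :=
  eLpNorm (fun y => (1 + PP h y) ^ (-(7 : ℝ)) • f y) 2 (volume.restrict (cell h))

/-- τ^s for τ > 0 -/
def cp (τ : ℝ) (s : ℂ) : ℂ := Complex.exp (s * (Real.log τ : ℂ))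

/-- rescaling by τ, translation by x, phase ϑ -/
def Zs (n : ℕ) (b τ : ℝ) (x : R12) (ϑ : ℝ) (f : R12 → ℂ) (y : R12) : ℂ :=
  Complex.exp (-Complex.I * ϑ) * cp τ ((aa n : ℂ) - Complex.I * b) * f (x + Real.sqrt τ • y)

/-- the (approximately, if h ≠ 0) self-similar solution blowing up at t = 1 -/
def UU (n : ℕ) (b : ℝ) (q : ℝ → ℂ) (h t : ℝ) (y : R12) : ℂ :=
  cp (1 - t) (-(aa n : ℂ) + Complex.I * b) * q (PP h y / (4 * (1 - t)))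

/-- norm in similarity variables at time t -/
def nrmT (n : ℕ) (b : ℝ) (k : ℕ) (h t : ℝ) (f : R12 → ℂ) : ℝ≥0∞ :=
  nrm k (h * Real.sqrt (1 - t)) (Zs n b (1 - t) 0 0 f)
def lowT (n : ℕ) (b : ℝ) (h t : ℝ) (f : R12 → ℂ) : ℝ≥0∞ :=
  low (h * Real.sqrt (1 - t)) (Zs n b (1 - t) 0 0 f)

/-- C^k in space, all space derivatives of order ≤ k jointly continuous on J × ℝ¹² -/
structure Ck (k : ℕ) (J : Set ℝ) (z : ℝ → R12 → ℂ) : Prop where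
  diff : ∀ t ∈ J, ContDiff ℝ k (z t)
  cont : ∀ j : ℕ, j ≤ k →
    ContinuousOn (fun p : ℝ × R12 => iteratedFDeriv ℝ j (z p.1) p.2) (J ×ˢ univ)

/-- smooth (2π/h)-periodic solution of i w_t + Δw = |w|^{2n} w on the time set J -/
structure Sol (n : ℕ) (h : ℝ) (J : Set ℝ) (w : ℝ → R12 → ℂ) : Prop where
  reg : ∀ k : ℕ, Ck k J w
  per : ∀ t ∈ J, Per h (w t)
  eqn : ∀ t ∈ J, ∀ y : R12,
    HasDerivWithinAt (fun s => w s y) (Complex.I * (lap (w t) y - NL n (w t y))) J t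

/-- solution, at regularity level k, of the equation linearised at U_h with source S -/
structure Lin (n : ℕ) (b : ℝ) (q : ℝ → ℂ) (k : ℕ) (h : ℝ) (J : Set ℝ) (z S : ℝ → R12 → ℂ) : Prop where
  reg : Ck (k + 2) J z
  regS : Ck k J S
  per : ∀ t ∈ J, Per h (z t)
  perS : ∀ t ∈ J, Per h (S t)
  fin : h = 0 → ∃ B : ℝ, ∀ t ∈ J, nrmT n b (k + 1) 0 t (z t) ≤ ENNReal.ofReal B
  eqn : ∀ t ∈ J, ∀ y : R12, HasDerivWithinAt (fun s => z s y)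
    (Complex.I * (lap (z t) y - (V1 n (UU n b q h t y) * z t y + V2 n (UU n b q h t y) * conj (z t y)
      + S t y))) J t

/-- quadratic remainder of the nonlinearity -/
def Quad (n : ℕ) (u z : ℂ) : ℂ := NL n (u + z) - NL n u - V1 n u * z - V2 n u * conj z

/-- error of U_h at time 0:  i ∂_t U + ΔU - NL U;  it vanishes for h = 0 -/
def Err (q : ℝ → ℂ) (h : ℝ) (y : R12) : ℂ :=
  -(h : ℂ) ^ 2 * (deriv (deriv q) (PP h y / 4) * ((∑ i : Fin 12, psi h (y i) ^ 2 : ℝ) : ℂ) / 16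
    + deriv q (PP h y / 4) * (PP h y : ℂ) / 4)

/-! ## Part E: static estimates -/

/-- **E1. Sobolev** -/
def SobStmt : Prop :=
  ∀ k : ℕ, 80 ≤ k → ∃ C : ℝ, 0 < C ∧ ∀ h ∈ Icc (0 : ℝ) 1, ∀ (f : R12 → ℂ) (B : ℝ), 0 ≤ B →
    ContDiff ℝ k f → Per h f → nrm k h f ≤ ENNReal.ofReal B → ∀ (j : ℕ) (y : R12),
      (j + 12 ≤ k → ‖iteratedFDeriv ℝ j f y‖ ≤ C * B) ∧
      (j ≤ 28 → ‖iteratedFDeriv ℝ j f y‖ ≤ C * B * (1 + PP h y) ^ (-(j : ℝ) / 2))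

/-- **E2. symbols of negative order have finite norm, uniformly in h** -/
def SymNrmStmt : Prop :=
  ∀ (k : ℕ) (σ : ℝ), 0 < σ → ∃ C : ℝ, 0 < C ∧ ∀ h ∈ Icc (0 : ℝ) 1, ∀ (f : R12 → ℂ) (B : ℝ), 0 ≤ B →
    (∀ j : ℕ, j ≤ k → ∀ y, ‖iteratedFDeriv ℝ j f y‖ ≤ B * (1 + PP h y) ^ (-σ - (j : ℝ) / 2)) →
    nrm k h f ≤ ENNReal.ofReal (C * B)

/-- **E3. U_h is a symbol of order -2a; it is smooth, and solves NLS up to `Err`** -/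
def UUStmt : Prop :=
  ∀ (n : ℕ) (b : ℝ) (q : ℝ → ℂ), Prof n b q →
    (∀ h : ℝ, ContDiffOn ℝ ∞ (fun p : ℝ × R12 => UU n b q h p.1 p.2) (Iio 1 ×ˢ univ)) ∧
    (∀ h t : ℝ, Per h (UU n b q h t)) ∧
    (∀ j : ℕ, ∃ C : ℝ, ∀ h ∈ Icc (0 : ℝ) 1, ∀ y,
      ‖iteratedFDeriv ℝ j (UU n b q h 0) y‖ ≤ C * (1 + PP h y) ^ (-(aa n) - (j : ℝ) / 2)) ∧
    (∀ h t : ℝ, 0 ≤ h → t < 1 → ∀ y, HasDerivAt (fun s => UU n b q h s y)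
      (Complex.I * (lap (UU n b q h t) y - NL n (UU n b q h t y)
        - cp (1 - t) (-(aa n : ℂ) + Complex.I * b - 1)
          * Err q (h * Real.sqrt (1 - t)) ((Real.sqrt (1 - t))⁻¹ • y))) t) ∧
    (∀ k : ℕ, ∃ C : ℝ, 0 < C ∧ ∀ h ∈ Icc (0 : ℝ) 1, nrm k h (Err q h) ≤ ENNReal.ofReal (C * h ^ 2))

/-- **E4. the quadratic remainder** -/
def QuadStmt : Prop :=
  ∀ (n : ℕ) (b : ℝ) (q : ℝ → ℂ), Prof n b q → ∀ k : ℕ, 80 ≤ k → ∃ C : ℝ, 0 < C ∧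
    ∀ h ∈ Icc (0 : ℝ) 1, ∀ (f : R12 → ℂ) (B : ℝ), 0 ≤ B → B ≤ 1 → ContDiff ℝ k f → Per h f →
      nrm k h f ≤ ENNReal.ofReal B →
      nrm k h (fun y => Quad n (UU n b q h 0 y) (f y)) ≤ ENNReal.ofReal (C * B ^ 2)

/-- **E5. re-centring**: bounded on the norm, Lipschitz on the profile -/
def RecStmt : Prop :=
  ∀ (n : ℕ) (b : ℝ) (q : ℝ → ℂ), Prof n b q → ∀ k : ℕ, ∃ C : ℝ, 0 < C ∧
    ∀ h ∈ Icc (0 : ℝ) (1 / 2), ∀ (T : ℝ) (x : R12) (ϑ ε : ℝ), ε ≤ 1 / 2 → |T - 1| ≤ ε → ‖x‖ ≤ ε → |ϑ| ≤ ε →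
      (∀ (f : R12 → ℂ) (B : ℝ), 0 ≤ B → ContDiff ℝ k f → Per h f → nrm k h f ≤ ENNReal.ofReal B →
        nrm k (h * Real.sqrt T) (Zs n b T x ϑ f) ≤ ENNReal.ofReal (C * B)) ∧
      nrm k (h * Real.sqrt T) (fun y => Zs n b T x ϑ (UU n b q h 0) y - UU n b q (h * Real.sqrt T) 0 y)
        ≤ ENNReal.ofReal (C * ε)

/-- **E6. Fatou** (h_l → 0, possibly h_l = 0) -/
def FatouStmt : Prop :=
  ∀ (k : ℕ) (hs : ℕ → ℝ) (fs : ℕ → R12 → ℂ) (f : R12 → ℂ) (B : ℝ≥0∞), (∀ l, 0 ≤ hs l) →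
    Tendsto hs atTop (𝓝 0) → (∀ l, ContDiff ℝ k (fs l)) →
    (∀ j : ℕ, j ≤ k → ∀ y, Tendsto (fun l => iteratedFDeriv ℝ j (fs l) y) atTop
      (𝓝 (iteratedFDeriv ℝ j f y))) →
    (∀ᶠ l in atTop, nrm k (hs l) (fs l) ≤ B) → nrm k 0 f ≤ B

/-- **E7. the weak norm only sees a bounded region** -/
def LowStmt : Prop :=
  ∃ C : ℝ, 0 < C ∧ ∀ ε : ℝ, 0 < ε → ∃ ϱ : ℝ, ∀ h ∈ Icc (0 : ℝ) 1, ∀ (f : R12 → ℂ) (B D : ℝ),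
    0 ≤ B → 0 ≤ D → (∀ y, ‖f y‖ ≤ B) → (∀ y, ‖y‖ ≤ ϱ → ‖f y‖ ≤ D) →
    low h f ≤ ENNReal.ofReal (ε * B + C * D)

/-- **E8. comparison with the distance of the statement, and finiteness/continuity on a torus** -/
def TorusStmt : Prop :=
  (∀ (n : ℕ) (b : ℝ) (k : ℕ) (τ : ℝ), 0 < τ → ∃ C : ℝ, 0 < C ∧ ∀ v w : R12 → ℂ,
    IsSmoothPeriodic v → IsSmoothPeriodic w →
    nrm k (Real.sqrt τ) (Zs n b τ 0 0 (fun y => v y - w y))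
      ≤ ENNReal.ofReal (C * Real.sqrt (sobolevDistSq k v w))) ∧
  (∀ (n : ℕ) (b : ℝ) (k : ℕ) (h t₁ t₂ : ℝ) (z : ℝ → R12 → ℂ), 0 < h → t₂ < 1 → Ck k (Icc t₁ t₂) z →
    (∀ t ∈ Icc t₁ t₂, nrmT n b k h t (z t) ≠ ⊤) ∧
    ContinuousOn (fun t => (nrmT n b k h t (z t)).toReal) (Icc t₁ t₂))

/-! ## Part E: the energy inequality -/

/-- **E9.** (a) Gronwall, (b) Lasota–Yorke form -/
def EnergyStmt : Prop :=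
  ∀ (n : ℕ) (b : ℝ) (q : ℝ → ℂ), Prof n b q → ∃ k₀ : ℕ, ∀ k : ℕ, k₀ ≤ k →
    ∃ μ C : ℝ, 0 < μ ∧ 0 < C ∧ ∀ h ∈ Icc (0 : ℝ) 1, ∀ t₁ t₂ : ℝ, 0 ≤ t₁ → t₁ ≤ t₂ → t₂ < 1 →
      ∀ z S : ℝ → R12 → ℂ, Lin n b q k h (Icc t₁ t₂) z S → ∀ A B : ℝ, 0 ≤ A → 0 ≤ B →
        nrmT n b k h t₁ (z t₁) ≤ ENNReal.ofReal A →
        (∀ s ∈ Icc t₁ t₂, nrmT n b k h s (fun y => ((1 - s : ℝ) : ℂ) * S s y) ≤ ENNReal.ofReal B) →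
        nrmT n b k h t₂ (z t₂) ≤ ENNReal.ofReal (C * ((1 - t₁) / (1 - t₂)) ^ C * (A + B)) ∧
        ∀ D : ℝ, 0 ≤ D → (∀ s ∈ Icc t₁ t₂, lowT n b h s (z s) ≤ ENNReal.ofReal D) →
          nrmT n b k h t₂ (z t₂) ≤ ENNReal.ofReal (C * (((1 - t₂) / (1 - t₁)) ^ μ * A + B + D))

/-! ## Part L: local theory -/

/-- **L** -/
def LocalStmt : Prop :=
  ∀ (n : ℕ) (h B : ℝ), 0 < h → ∃ T₀ : ℝ, 0 < T₀ ∧ ∀ w₀ : R12 → ℂ, ContDiff ℝ ∞ w₀ → Per h w₀ →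
    (∀ j : ℕ, j ≤ 24 → ∀ y, ‖iteratedFDeriv ℝ j w₀ y‖ ≤ B) →
    ∃ w : ℝ → R12 → ℂ, Sol n h (Icc 0 T₀) w ∧ w 0 = w₀

/-! ## Part C: compactness and linear decay -/

/-- the real symmetry modes at time t (h = 0):  c₀ iU + c₁ (-∂_t U) + Σ x_j ∂_j U -/
def mode (n : ℕ) (b : ℝ) (q : ℝ → ℂ) (c₀ c₁ : ℝ) (x : R12) (t : ℝ) (y : R12) : ℂ :=
  c₀ * (Complex.I * UU n b q 0 t y) - c₁ * deriv (fun s => UU n b q 0 s y) t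
    + fderiv ℝ (UU n b q 0 t) y x

/-- **C1. Compactness.** -/
def CompactStmt : Prop :=
  ∀ (n : ℕ) (b : ℝ) (q : ℝ → ℂ), Prof n b q → ∀ k : ℕ, 100 ≤ k →
    ∀ (hs : ℕ → ℝ) (ts : ℕ → ℝ) (zs Ss : ℕ → ℝ → R12 → ℂ) (B : ℝ → ℝ),
      (∀ l, hs l ∈ Icc (0 : ℝ) 1) → Tendsto hs atTop (𝓝 0) → (∀ l, ts l ∈ Ico (0 : ℝ) 1) →
      Tendsto ts atTop (𝓝 1) →
      (∀ l, Lin n b q k (hs l) (Icc 0 (ts l)) (zs l) (Ss l)) →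
      (∀ T ∈ Ico (0 : ℝ) 1, ∀ᶠ l in atTop, ∀ t ∈ Icc 0 T,
        nrmT n b k (hs l) t (zs l t) ≤ ENNReal.ofReal (B T)) →
      (∀ T ∈ Ico (0 : ℝ) 1, ∀ ε : ℝ, 0 < ε → ∀ᶠ l in atTop, ∀ t ∈ Icc 0 T,
        nrmT n b k (hs l) t (fun y => ((1 - t : ℝ) : ℂ) * Ss l t y) ≤ ENNReal.ofReal ε) →
      ∃ (φ : ℕ → ℕ) (z : ℝ → R12 → ℂ), StrictMono φ ∧
        (∀ T ∈ Ico (0 : ℝ) 1, Lin n b q (k - 20) 0 (Icc 0 T) z 0) ∧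
        (∀ T ∈ Ico (0 : ℝ) 1, nrmT n b (k - 20) 0 T (z T) ≤ ENNReal.ofReal (B T)) ∧
        ∀ T ∈ Ico (0 : ℝ) 1, ∀ ϱ ε : ℝ, 0 < ε → ∀ᶠ l in atTop, ∀ t ∈ Icc 0 T, ∀ y : R12, ‖y‖ ≤ ϱ →
          ‖zs (φ l) t y - z t y‖ ≤ ε

/-- **C2. Linear decay modulo the symmetry modes.** -/
def DecayStmt : Prop :=
  ∀ (n : ℕ) (b : ℝ) (q : ℝ → ℂ), Prof n b q → MS n b q → ∃ k₀ : ℕ, ∀ k : ℕ, k₀ ≤ k →
    ∃ C : ℝ, 0 < C ∧ ∀ ε : ℝ, 0 < ε → ∃ t₀ ∈ Ico (0 : ℝ) 1, ∀ z : ℝ → R12 → ℂ,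
      (∀ T ∈ Ico (0 : ℝ) 1, Lin n b q k 0 (Icc 0 T) z 0) → nrm k 0 (z 0) ≤ 1 →
      ∃ (c₀ c₁ : ℝ) (x : R12), |c₀| ≤ C ∧ |c₁| ≤ C ∧ ‖x‖ ≤ C ∧ ∀ t ∈ Ico (0 : ℝ) 1,
        nrmT n b k 0 t (fun y => z t y - mode n b q c₀ c₁ x t y) ≤ ENNReal.ofReal C ∧
        (t₀ ≤ t → nrmT n b k 0 t (fun y => z t y - mode n b q c₀ c₁ x t y) ≤ ENNReal.ofReal ε)

/-! ## Part K: the key proposition -/

/-- **K1.** one renormalisation step -/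
def KeyStmt : Prop :=
  ∀ (n : ℕ) (b : ℝ) (q : ℝ → ℂ), Prof n b q → MS n b q → ∃ k : ℕ, 80 ≤ k ∧
    ∃ τ₁ δ₀ C : ℝ, 0 < τ₁ ∧ τ₁ ≤ 1 / 8 ∧ 0 < δ₀ ∧ 0 < C ∧ ∀ δ h : ℝ, 0 < h → h ≤ δ → δ ≤ δ₀ →
      ∀ w₀ : R12 → ℂ, ContDiff ℝ ∞ w₀ → Per h w₀ →
        nrm k h (fun y => w₀ y - UU n b q h 0 y) ≤ ENNReal.ofReal δ →
        ∃ (w : ℝ → R12 → ℂ) (T : ℝ) (x : R12) (ϑ : ℝ), |T - 1| ≤ C * δ ∧ ‖x‖ ≤ C * δ ∧
          T * (1 - τ₁) < 1 - τ₁ / 2 ∧ Sol n h (Icc 0 (T * (1 - τ₁))) w ∧ w 0 = w₀ ∧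
          (∀ t ∈ Icc 0 (T * (1 - τ₁)), ∀ y, ‖w t y - UU n b q h t y‖ ≤ C * δ) ∧
          nrm k (h * Real.sqrt (T * τ₁))
            (fun y => Zs n b (T * τ₁) x ϑ (w (T * (1 - τ₁))) y - UU n b q (h * Real.sqrt (T * τ₁)) 0 y)
            ≤ ENNReal.ofReal (δ / 2)

/-- the conclusion of S0114 for one p = 2n+1 -/
def BlowStmt (n : ℕ) : Prop :=
  ∃ k : ℕ, 8 < k ∧ ∃ U : Set (R12 → ℂ), U.Nonempty ∧
      (∀ v ∈ U, IsSmoothPeriodic v) ∧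
      (∀ u₀ ∈ U, ∃ δ : ℝ, 0 < δ ∧ ∀ v : R12 → ℂ, IsSmoothPeriodic v → sobolevDistSq k v u₀ < δ → v ∈ U) ∧
      ∀ u₀ ∈ U, ∃ T : ℝ, 0 < T ∧ ∃ u : ℝ → R12 → ℂ, IsClassicalSolution (2 * n + 1) T u ∧ u 0 = u₀ ∧
        ∃ xs : R12, ∃ c₀ : ℝ, 0 < c₀ ∧
          Filter.Tendsto (fun t : ℝ => (T - t) ^ (1 / (((2 * n + 1 : ℕ) : ℝ) - 1)) * ‖u t xs‖)
            (nhdsWithin T (Set.Iio T)) (nhds c₀)

end

end Crest.Agent.R086
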