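import Crest.Agent.R086.E.Main
import Crest.Agent.R086.L.Main
import Crest.Agent.R086.C.Main
import Crest.Agent.R086.K.Main
import Crest.Agent.R086.Final

/-! # Row 86: the PDE part -/

namespace Crest.Agent.R086

theorem blowAll (n : ℕ) (b : ℝ) (q : ℝ → ℂ) (hP : Prof n b q) (hMS : MS n b q) : BlowStmt n :=
  K.blow E.uu E.torus
    (K.keyS E.sob E.symNrm E.uu E.quad E.recn E.lowS E.torus E.energy
      (C.compact E.sob E.uu E.fatou)
      (C.decay E.sob E.symNrm E.uu E.lowS E.energy (C.compact E.sob E.uu E.fatou))) hP hMS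

end Crest.Agent.R086
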